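import Mathlib

/-!
# P053: colourings of Berlekamp's type

`F` is a finite field with `2 ^ m` elements, `α` generates its multiplicative group and
`L : F →+ ZMod 2` is additive.  The colouring is `n ↦ L (α ^ n)`.  If `[1, N]` covers one full
period plus `k - 1` (that is `2 ^ m + k - 2 ≤ N`) and `N > (k - 1) * (2 ^ (k - 1) - 1)`, there is
a monochromatic `k`-term progression inside `[1, N]`.

* `k ≤ m`: look at the additive map `T z = (L (z * α ^ i))_{i < k}` from `F` to `Fin k → ZMod 2`.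
  If `T` is not injective, some `z ≠ 0` has `L (z * α ^ i) = 0` for all `i < k`; if it is
  injective then `m = k`, `T` is onto and some `z ≠ 0` has `L (z * α ^ i) = 1` for all `i < k`.
  In both cases `z = α ^ a` with `1 ≤ a ≤ 2 ^ m - 1`, and `a, a + 1, …, a + k - 1` is
  monochromatic.
* `m < k`: `α ^ (2 ^ m - 1) = 1`, so `1, 1 + t, …, 1 + (k - 1) t` with `t = 2 ^ m - 1` all get the
  colour of `1`, and `t ≤ 2 ^ (k - 1) - 1`.
-/

namespace Vale.Agent.H14.VdW

/-- If `L (z * α ^ i) = c` for all `i < k` with `z ≠ 0`, the progression of difference one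
starting at a suitable `a ≤ t` is monochromatic. -/
theorem linear_window (k t : ℕ) (F : Type) [Field F] (α : F) (ht : α ^ t = 1) (htpos : 1 ≤ t)
    (hα : ∀ z : F, z ≠ 0 → ∃ n : ℕ, α ^ n = z) (L : F →+ ZMod 2) (hkpos : 1 ≤ k)
    (z : F) (hz : z ≠ 0) (c : ZMod 2) (hc : ∀ i : ℕ, i < k → L (z * α ^ i) = c) :
    ∃ a : ℕ, 1 ≤ a ∧ a ≤ t ∧ ∀ i : ℕ, i < k → L (α ^ (a + i * 1)) = L (α ^ a) := by
  obtain ⟨n, hn⟩ := hα z hz
  have hred : α ^ (n % t) = z := by
    have h2 : α ^ n = α ^ (n % t) := by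
      conv_lhs => rw [← Nat.div_add_mod n t]
      rw [pow_add, pow_mul, ht, one_pow, one_mul]
    rw [← h2, hn]
  obtain ⟨a, ha1, hat, haz⟩ : ∃ a : ℕ, 1 ≤ a ∧ a ≤ t ∧ α ^ a = z := by
    rcases Nat.eq_zero_or_pos (n % t) with h0 | hpos
    · refine ⟨t, htpos, le_refl t, ?_⟩
      rw [h0, pow_zero] at hred
      rw [ht, hred]
    · exact ⟨n % t, hpos, (Nat.mod_lt n (by omega)).le, hred⟩
  refine ⟨a, ha1, hat, ?_⟩
  intro i hi
  have h3 : L (α ^ a) = c := by
    have h4 := hc 0 (by omega)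
    rwa [pow_zero, mul_one, ← haz] at h4
  rw [h3, mul_one, pow_add, haz]
  exact hc i hi

theorem linear_colouring_progression (m k N : ℕ) (F : Type) [Field F] [Fintype F]
    (hF : Fintype.card F = 2 ^ m) (α : F) (hα0 : α ≠ 0)
    (hα : ∀ z : F, z ≠ 0 → ∃ n : ℕ, α ^ n = z) (L : F →+ ZMod 2)
    (hN1 : 2 ^ m + k ≤ N + 2) (hN2 : (k - 1) * (2 ^ (k - 1) - 1) < N) :
    ∃ a d : ℕ, 1 ≤ a ∧ 1 ≤ d ∧ a + (k - 1) * d ≤ N ∧
      ∀ i : ℕ, i < k → L (α ^ (a + i * d)) = L (α ^ a) := by
  classical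
  have hcard2 : 2 ≤ 2 ^ m := by
    rw [← hF]
    exact Fintype.one_lt_card
  have hm : 1 ≤ m := by
    rcases Nat.eq_zero_or_pos m with h | h
    · rw [h] at hcard2
      norm_num at hcard2
    · exact h
  obtain ⟨t, ht2⟩ : ∃ t : ℕ, 2 ^ m = t + 1 :=
    ⟨2 ^ m - 1, (Nat.sub_add_cancel (by omega)).symm⟩
  have htpos : 1 ≤ t := by omega
  have ht : α ^ t = 1 := by
    have h0 := FiniteField.pow_card_sub_one_eq_one α hα0
    rwa [hF, ht2, Nat.add_sub_cancel] at h0
  have hN1' : t + 1 + k ≤ N + 2 := by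
    rw [ht2] at hN1
    exact hN1
  rcases Nat.eq_zero_or_pos k with hk0 | hkpos
  · subst hk0
    refine ⟨1, 1, le_refl 1, le_refl 1, ?_, ?_⟩
    · omega
    · intro i hi
      omega
  rcases Nat.lt_or_ge m k with hmk | hkm
  · -- one period
    obtain ⟨k', rfl⟩ : ∃ k', k = k' + 1 := ⟨k - 1, by omega⟩
    rw [Nat.add_sub_cancel] at hN2 ⊢
    have h2k : t + 1 ≤ 2 ^ k' := by
      rw [← ht2]
      exact Nat.pow_le_pow_right (by norm_num) (by omega)
    have htk : t ≤ 2 ^ k' - 1 := Nat.le_sub_one_of_lt h2k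
    refine ⟨1, t, le_refl 1, htpos, ?_, ?_⟩
    · have h5 : k' * t ≤ k' * (2 ^ k' - 1) := Nat.mul_le_mul_left _ htk
      omega
    · intro i _
      rw [pow_add, mul_comm i t, pow_mul, ht, one_pow, mul_one]
  · -- a window of k consecutive integers
    let T : F → (Fin k → ZMod 2) := fun z i => L (z * α ^ (i : ℕ))
    have hwin : ∃ (z : F) (c : ZMod 2), z ≠ 0 ∧ ∀ i : ℕ, i < k → L (z * α ^ i) = c := by
      by_cases hinj : Function.Injective T
      · -- then T is onto and the all-ones pattern occurs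
        have hle : Fintype.card F ≤ Fintype.card (Fin k → ZMod 2) :=
          Fintype.card_le_of_injective T hinj
        have hge : Fintype.card (Fin k → ZMod 2) ≤ Fintype.card F := by
          rw [hF, Fintype.card_fun, ZMod.card, Fintype.card_fin]
          exact Nat.pow_le_pow_right (by norm_num) hkm
        have hbij : Function.Bijective T :=
          (Fintype.bijective_iff_injective_and_card T).mpr ⟨hinj, le_antisymm hle hge⟩
        obtain ⟨z, hz⟩ := hbij.2 (fun _ => 1)
        refine ⟨z, 1, ?_, ?_⟩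
        · intro hz0
          have h1 := congr_fun hz ⟨0, hkpos⟩
          simp only [T] at h1
          rw [hz0, zero_mul, map_zero] at h1
          exact zero_ne_one h1
        · intro i hi
          have h1 := congr_fun hz ⟨i, hi⟩
          simpa only [T] using h1
      · -- a nonzero element of the kernel
        rw [Function.Injective] at hinj
        push Not at hinj
        obtain ⟨x, y, hT, hxy⟩ := hinj
        refine ⟨x - y, 0, sub_ne_zero.mpr hxy, ?_⟩
        intro i hi
        have h1 := congr_fun hT ⟨i, hi⟩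
        simp only [T] at h1
        rw [sub_mul, map_sub, h1, sub_self]
    obtain ⟨z, c, hz, hc⟩ := hwin
    obtain ⟨a, ha1, hat, hmono⟩ := linear_window k t F α ht htpos hα L hkpos z hz c hc
    refine ⟨a, 1, ha1, le_refl 1, ?_, hmono⟩
    rw [mul_one]
    omega

end Vale.Agent.H14.VdW
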